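import Vale.Agent.Lib.P157.Bound

open MeasureTheory ProbabilityTheory

namespace Vale.Agent.Results.P157.FractionalMomentBound

/-- Ising-cube Gaussian perceptron: for independent standard Gaussian patterns `g a` in `ℝ^N`
(`a : Fin M`), a bounded Borel log-potential `f` and every `lam ∈ (0, 1]`, the expected pressure
is at most `(1 / lam - 1) * log 2 + M / (N * lam) * log E exp (lam * f G)`. -/
theorem result {Ω : Type*} {mΩ : MeasurableSpace Ω} (μ : Measure Ω) [IsProbabilityMeasure μ]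
    (N M : ℕ) (hN : 0 < N)
    (g : Fin M → Ω → (Fin N → ℝ)) (hg : ∀ a, Measurable (g a))
    (hind : iIndepFun g μ)
    (hlaw : ∀ a, μ.map (g a) = Measure.pi (fun _ : Fin N => gaussianReal 0 1))
    (f : ℝ → ℝ) (hf : Measurable f) (C : ℝ) (hC : ∀ t, |f t| ≤ C)
    (lam : ℝ) (h0 : 0 < lam) (h1 : lam ≤ 1) :
    ∫ ω, (1 / (N : ℝ)) * Real.log ((∑ x : Fin N → Bool,
        Real.exp (∑ a, f ((∑ i, g a ω i * (if x i then 1 else -1)) / Real.sqrt N))) / 2 ^ N) ∂μ
      ≤ (1 / lam - 1) * Real.log 2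
        + (M : ℝ) / (N * lam) * Real.log (∫ t, Real.exp (lam * f t) ∂(gaussianReal 0 1)) :=
  Vale.Agent.Lib.P157.fractional_moment_bound μ N M hN g hg hind hlaw f hf C hC lam h0 h1

end Vale.Agent.Results.P157.FractionalMomentBound
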