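import Vale.Agent.Lib.P157.Asymptotics

open MeasureTheory ProbabilityTheory

namespace Vale.Agent.Results.P157.LargeAlphaBounds

/-- Ising-cube Gaussian perceptron: for independent standard Gaussian patterns `g a` in `ℝ^N`
(`a : Fin M`) and a Borel log-potential `f` with `|f| ≤ C`, the expected pressure lies between
`(M / N) * E f G` and `(M / N) * E f G + C * sqrt (2 * log 2 * (M / N))`. -/
theorem result {Ω : Type*} {mΩ : MeasurableSpace Ω} (μ : Measure Ω) [IsProbabilityMeasure μ]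
    (N M : ℕ) (hN : 0 < N)
    (g : Fin M → Ω → (Fin N → ℝ)) (hg : ∀ a, Measurable (g a))
    (hind : iIndepFun g μ)
    (hlaw : ∀ a, μ.map (g a) = Measure.pi (fun _ : Fin N => gaussianReal 0 1))
    (f : ℝ → ℝ) (hf : Measurable f) (C : ℝ) (hC : ∀ t, |f t| ≤ C) :
    (M : ℝ) / N * (∫ t, f t ∂(gaussianReal 0 1))
      ≤ ∫ ω, (1 / (N : ℝ)) * Real.log ((∑ x : Fin N → Bool,
        Real.exp (∑ a, f ((∑ i, g a ω i * (if x i then 1 else -1)) / Real.sqrt N))) / 2 ^ N) ∂μ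
    ∧ ∫ ω, (1 / (N : ℝ)) * Real.log ((∑ x : Fin N → Bool,
        Real.exp (∑ a, f ((∑ i, g a ω i * (if x i then 1 else -1)) / Real.sqrt N))) / 2 ^ N) ∂μ
      ≤ (M : ℝ) / N * (∫ t, f t ∂(gaussianReal 0 1))
        + C * Real.sqrt (2 * Real.log 2 * ((M : ℝ) / N)) :=
  Vale.Agent.Lib.P157.large_alpha_bounds μ N M hN g hg hind hlaw f hf C hC

end Vale.Agent.Results.P157.LargeAlphaBounds
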