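import Vale.Agent.Lib.P157.Sph.Both

open MeasureTheory ProbabilityTheory

namespace Vale.Agent.Results.P157.LimitExistsCubeAndSphere

/-- Gaussian perceptron on both configuration spaces of the problem. Let `ν` be a measure on the
real line with `ν univ < 1`, `u s = ∫ t, cos (t * s) ∂ν` its cosine transform (by Bochner's
theorem: any real continuous positive definite function with `u 0 < 1`) and
`f s = c + log (1 - u s)`. For every pattern density `α > 0`, with `M = ⌊α N⌋` independent
standard Gaussian patterns, the expected pressure `E p_N(f)` converges as `N → ∞`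

* on the Ising cube `{-1, 1}^N` with its uniform measure (first part), and
* on the sphere `{x : ‖x‖² = N}` with its normalised surface measure (second part; the
  configuration is `x = √N ω`, `ω` in the unit sphere of `ℝ^N`, and `⨍ … ∂ volume.toSphere` is the
  average with respect to the surface measure of the unit sphere). -/
theorem result (ν : Measure ℝ) (hν : ν Set.univ < 1) (c α : ℝ) (hα : 0 < α) :
    (∃ L : ℝ, Filter.Tendsto (fun N : ℕ =>
      ∫ G : Fin ⌊α * N⌋₊ → Fin N → ℝ, (1 / (N : ℝ)) * Real.log ((∑ x : Fin N → Bool,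
        Real.exp (∑ a, (c + Real.log (1 - ∫ t, Real.cos
          (t * ((∑ i, G a i * (if x i then 1 else -1)) / Real.sqrt N)) ∂ν)))) / 2 ^ N)
      ∂(Measure.pi (fun _ : Fin ⌊α * N⌋₊ => Measure.pi (fun _ : Fin N => gaussianReal 0 1))))
      Filter.atTop (nhds L)) ∧
    (∃ L : ℝ, Filter.Tendsto (fun N : ℕ =>
      ∫ G : Fin ⌊α * N⌋₊ → Fin N → ℝ, (1 / (N : ℝ)) * Real.log
        (⨍ ω : Metric.sphere (0 : EuclideanSpace ℝ (Fin N)) 1,
          Real.exp (∑ a, (c + Real.log (1 - ∫ t, Real.cos
            (t * ((∑ i, G a i * (Real.sqrt N * ω.1 i)) / Real.sqrt N)) ∂ν)))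
          ∂((volume : Measure (EuclideanSpace ℝ (Fin N))).toSphere))
      ∂(Measure.pi (fun _ : Fin ⌊α * N⌋₊ => Measure.pi (fun _ : Fin N => gaussianReal 0 1))))
      Filter.atTop (nhds L)) :=
  Vale.Agent.Lib.P157.pressure_tendsto_both ν hν c α hα

end Vale.Agent.Results.P157.LimitExistsCubeAndSphere
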