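import Vale.Agent.Lib.P157.Sph.Both
import Vale.Agent.Lib.P157.Bound
import Vale.Agent.Lib.P157.Asymptotics

open MeasureTheory ProbabilityTheory

namespace Vale.Agent.Results.P157.ThreeResults

universe u

/-- Three results on the Gaussian perceptron, collected: each part is the statement of another
hand-in of this folder (`LimitExistsCubeAndSphere`, `FractionalMomentBound`, `LargeAlphaBounds`),
word for word.  Nothing new is proved here.

1. For a measure `ν` on the real line with `ν univ < 1`, `u s = ∫ t, cos (t * s) ∂ν`,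
`f s = c + log (1 - u s)` and `M = ⌊α N⌋` independent standard Gaussian patterns, the expected
pressure converges as `N → ∞`, on the Ising cube with its uniform measure and on the sphere
`{x : ‖x‖² = N}` with its normalised surface measure (`x = √N ω`, `ω` in the unit sphere).

2. On the Ising cube, for independent standard Gaussian patterns `g a` in `ℝ^N` (`a : Fin M`) on
any probability space, a Borel `f` with `|f| ≤ C` and every `lam ∈ (0, 1]`, the expected pressure
is at most `(1 / lam - 1) * log 2 + M / (N * lam) * log E exp (lam * f G)`.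

3. In the same setting the expected pressure lies between `(M / N) * E f G` and
`(M / N) * E f G + C * sqrt (2 * log 2 * (M / N))`. -/
theorem result :
    (∀ (ν : Measure ℝ), ν Set.univ < 1 → ∀ c α : ℝ, 0 < α →
      (∃ L : ℝ, Filter.Tendsto (fun N : ℕ =>
        ∫ G : Fin ⌊α * N⌋₊ → Fin N → ℝ, (1 / (N : ℝ)) * Real.log ((∑ x : Fin N → Bool,
          Real.exp (∑ a, (c + Real.log (1 - ∫ t, Real.cos
            (t * ((∑ i, G a i * (if x i then 1 else -1)) / Real.sqrt N)) ∂ν)))) / 2 ^ N)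
        ∂(Measure.pi (fun _ : Fin ⌊α * N⌋₊ => Measure.pi (fun _ : Fin N => gaussianReal 0 1))))
        Filter.atTop (nhds L)) ∧
      (∃ L : ℝ, Filter.Tendsto (fun N : ℕ =>
        ∫ G : Fin ⌊α * N⌋₊ → Fin N → ℝ, (1 / (N : ℝ)) * Real.log
          (⨍ ω : Metric.sphere (0 : EuclideanSpace ℝ (Fin N)) 1,
            Real.exp (∑ a, (c + Real.log (1 - ∫ t, Real.cos
              (t * ((∑ i, G a i * (Real.sqrt N * ω.1 i)) / Real.sqrt N)) ∂ν)))
            ∂((volume : Measure (EuclideanSpace ℝ (Fin N))).toSphere))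
        ∂(Measure.pi (fun _ : Fin ⌊α * N⌋₊ => Measure.pi (fun _ : Fin N => gaussianReal 0 1))))
        Filter.atTop (nhds L))) ∧
    (∀ (Ω : Type u) [MeasurableSpace Ω] (μ : Measure Ω) [IsProbabilityMeasure μ]
      (N M : ℕ), 0 < N → ∀ g : Fin M → Ω → (Fin N → ℝ), (∀ a, Measurable (g a)) →
      iIndepFun g μ →
      (∀ a, μ.map (g a) = Measure.pi (fun _ : Fin N => gaussianReal 0 1)) →
      ∀ f : ℝ → ℝ, Measurable f → ∀ C : ℝ, (∀ t, |f t| ≤ C) →
      ∀ lam : ℝ, 0 < lam → lam ≤ 1 →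
      ∫ ω, (1 / (N : ℝ)) * Real.log ((∑ x : Fin N → Bool,
          Real.exp (∑ a, f ((∑ i, g a ω i * (if x i then 1 else -1)) / Real.sqrt N))) / 2 ^ N) ∂μ
        ≤ (1 / lam - 1) * Real.log 2
          + (M : ℝ) / (N * lam) * Real.log (∫ t, Real.exp (lam * f t) ∂(gaussianReal 0 1))) ∧
    (∀ (Ω : Type u) [MeasurableSpace Ω] (μ : Measure Ω) [IsProbabilityMeasure μ]
      (N M : ℕ), 0 < N → ∀ g : Fin M → Ω → (Fin N → ℝ), (∀ a, Measurable (g a)) →
      iIndepFun g μ →
      (∀ a, μ.map (g a) = Measure.pi (fun _ : Fin N => gaussianReal 0 1)) →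
      ∀ f : ℝ → ℝ, Measurable f → ∀ C : ℝ, (∀ t, |f t| ≤ C) →
      (M : ℝ) / N * (∫ t, f t ∂(gaussianReal 0 1))
        ≤ ∫ ω, (1 / (N : ℝ)) * Real.log ((∑ x : Fin N → Bool,
          Real.exp (∑ a, f ((∑ i, g a ω i * (if x i then 1 else -1)) / Real.sqrt N))) / 2 ^ N) ∂μ
      ∧ ∫ ω, (1 / (N : ℝ)) * Real.log ((∑ x : Fin N → Bool,
          Real.exp (∑ a, f ((∑ i, g a ω i * (if x i then 1 else -1)) / Real.sqrt N))) / 2 ^ N) ∂μ
        ≤ (M : ℝ) / N * (∫ t, f t ∂(gaussianReal 0 1))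
          + C * Real.sqrt (2 * Real.log 2 * ((M : ℝ) / N))) :=
  ⟨fun ν hν c α hα => Vale.Agent.Lib.P157.pressure_tendsto_both ν hν c α hα,
    fun _ _ μ _ N M hN g hg hind hlaw f hf C hC lam h0 h1 =>
      Vale.Agent.Lib.P157.fractional_moment_bound μ N M hN g hg hind hlaw f hf C hC lam h0 h1,
    fun _ _ μ _ N M hN g hg hind hlaw f hf C hC =>
      Vale.Agent.Lib.P157.large_alpha_bounds μ N M hN g hg hind hlaw f hf C hC⟩

end Vale.Agent.Results.P157.ThreeResults
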